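import Vale.Agent.P038.H933S.Main

/-!
# P038 (H933S): Seymour's second neighbourhood conjecture, conclusion
-/

namespace Vale.Agent.P038.H933S

open Finset Vale.Agent.P038.H139 Vale.Agent.P038.H71

universe u

variable {V : Type u} [Fintype V] [DecidableEq V]

omit [DecidableEq V] in
theorem Fw_one (D : OGraph V) (v : V) :
    Fw 1 D (fun _ => (1 : ℝ)) v = ((N1 D v).card : ℝ) - (N2 D v).card := by
  simp [Fw, W]

omit [DecidableEq V] in
theorem one_le_Fw (D : OGraph V) (v : V) :
    1 ≤ Fw 1 D (fun _ => (1 : ℝ)) v ↔ (N2 D v).card < (N1 D v).card := by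
  rw [Fw_one, le_sub_iff_add_le]
  constructor
  · intro h
    have : (1 + (N2 D v).card : ℕ) ≤ (N1 D v).card := by exact_mod_cast h
    omega
  · intro h
    have : (1 + (N2 D v).card : ℕ) ≤ (N1 D v).card := by omega
    exact_mod_cast this

/-- (G) for an arc-minimal counterexample. -/
theorem gg {D : OGraph V} (hce : ∀ v, (N2 D v).card < (N1 D v).card)
    (hmin : ∀ D' : OGraph V, (∀ v, (N2 D' v).card < (N1 D' v).card) → numArcs D ≤ numArcs D')
    {X : Finset V} (hX : cl D X ≠ X) : cc D (cl D X) < cc D X := by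
  by_contra hcon
  push Not at hcon
  set L := Lx D X with hL
  have hLm : ∀ {z : V}, z ∈ L ↔ (∃ y ∈ X, D.arc y z) ∧ z ∉ X := by
    intro z
    rw [hL, Lx, Finset.mem_sdiff, mem_outS]
  have hclX : cl D X = X ∪ L := by
    ext z
    rw [mem_cl, Finset.mem_union, hLm]
    tauto
  have hdis : Disjoint X L := by
    rw [Finset.disjoint_left]
    intro z hz hz'
    exact (hLm.1 hz').2 hz
  have hLne : L ≠ ∅ := by
    intro he
    rw [he, Finset.union_empty] at hclX
    exact hX hclX
  have hccX : cl D (cl D X) = X ∪ (cl D L \ X) := by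
    rw [hclX, cl_un, hclX]
    ext z
    have h1 : z ∈ L → z ∈ cl D L := fun h => sub_cl D L h
    simp only [Finset.mem_union, Finset.mem_sdiff]
    tauto
  have hdis2 : Disjoint X (cl D L \ X) := Finset.disjoint_sdiff
  have hcard1 : (cl D X).card = X.card + L.card := by
    rw [hclX, Finset.card_union_of_disjoint hdis]
  have hcard2 : (cl D (cl D X)).card = X.card + (cl D L \ X).card := by
    rw [hccX, Finset.card_union_of_disjoint hdis2]
  have hdL : 2 * L.card ≤ (cl D L \ X).card := by
    unfold cc at hcon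
    omega
  set d : Finset V → ℝ := dd 1 D (fun _ => (1 : ℝ)) X with hd
  have hdval : ∀ T, d T = ((cl D T \ X).card : ℝ) - 2 * T.card := by
    intro T
    simp only [hd, dd, W, Finset.sum_const, nsmul_eq_mul, mul_one]
    norm_num
  have hd0 : d ∅ = 0 := by
    rw [hdval]
    have : cl D ∅ = ∅ := by
      ext z
      simp [mem_cl]
    simp [this]
  have hdL' : 0 ≤ d L := by
    rw [hdval, sub_nonneg]
    exact_mod_cast hdL
  obtain ⟨T, hTL, hTne, hTmin⟩ : ∃ T ⊆ L, T ≠ L ∧ ∀ S ⊆ L, d T ≤ d S := by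
    obtain ⟨T0, hT0, hT0min⟩ := Finset.exists_min_image L.powerset d
      ⟨∅, Finset.empty_mem_powerset _⟩
    by_cases hT0L : T0 = L
    · refine ⟨∅, Finset.empty_subset _, hLne.symm, fun S hS => ?_⟩
      have h1 := hT0min S (Finset.mem_powerset.2 hS)
      rw [hT0L] at h1
      rw [hd0]
      exact hdL'.trans h1
    · exact ⟨T0, Finset.mem_powerset.1 hT0, hT0L, fun S hS =>
        hT0min S (Finset.mem_powerset.2 hS)⟩
  have hrows := del_rows (lam := 1) (D := D) (w := fun _ => (1 : ℝ)) (fun _ => zero_le_one)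
    (fun v => (one_le_Fw D v).2 (hce v)) X T hTL (fun S _ hS => hTmin S hS)
  have h1 := hmin (del D X (Lx D X \ T)) fun v => (one_le_Fw _ v).1 (hrows v)
  obtain ⟨z, hzL, hzT⟩ : ∃ z ∈ L, z ∉ T := by
    by_contra hc
    push Not at hc
    exact hTne (Finset.Subset.antisymm hTL hc)
  obtain ⟨⟨y, hy, hyz⟩, _⟩ := hLm.1 hzL
  have h2 : numArcs (del D X (Lx D X \ T)) < numArcs D := by
    unfold numArcs
    refine Finset.sum_lt_sum (fun v _ => Finset.card_le_card fun u hu => ?_) ⟨y, Finset.mem_univ _,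
      Finset.card_lt_card (Finset.ssubset_iff_of_subset (fun u hu => ?_) |>.2 ⟨z, mem_N1.2 hyz, ?_⟩)⟩
    · rw [mem_N1] at hu ⊢
      exact hu.1
    · rw [mem_N1] at hu ⊢
      exact hu.1
    · rw [mem_N1]
      intro hh
      exact hh.2 ⟨hy, Finset.mem_sdiff.2 ⟨hzL, hzT⟩⟩
  omega

theorem gg' {D : OGraph V} (hce : ∀ v, (N2 D v).card < (N1 D v).card)
    (hmin : ∀ D' : OGraph V, (∀ v, (N2 D' v).card < (N1 D' v).card) → numArcs D ≤ numArcs D')
    (X : Finset V) : cc D (cl D X) ≤ cc D X := by
  by_cases hX : cl D X = X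
  · rw [hX]
  · exact (gg hce hmin hX).le

/-- No arc-minimal counterexample. -/
theorem no_min [Nonempty V] {D : OGraph V} (hce : ∀ v, (N2 D v).card < (N1 D v).card)
    (hmin : ∀ D' : OGraph V, (∀ v, (N2 D' v).card < (N1 D' v).card) → numArcs D ≤ numArcs D') :
    False := by
  classical
  obtain ⟨⟨B, C⟩, hBC, hBCmin⟩ := Finset.exists_min_image
    (univ.filter fun p : (V → Finset V) × (V → Finset V) => Val D p.1 p.2)
    (fun p => EE D p.1 p.2)
    ⟨(fun a => cl D {a}, fun a => cl D {a}), Finset.mem_filter.2 ⟨Finset.mem_univ _, val_cl D⟩⟩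
  have h : Val D B C := (Finset.mem_filter.1 hBC).2
  have hm : ∀ B' C', Val D B' C' → EE D B C ≤ EE D B' C' := fun B' C' h' =>
    hBCmin (B', C') (Finset.mem_filter.2 ⟨Finset.mem_univ _, h'⟩)
  have hshift := shift h hm
  set Bo := io (inN D) B with hBo
  set Co := io (inN D) C with hCo
  have selfBo : ∀ a, a ∈ Bo a := fun a => mem_io.2 fun z hz => h.memB hz
  have selfCo : ∀ a, a ∈ Co a := fun a => mem_io.2 fun z hz => h.memC hz
  have hval : Val D (fun a => cl D (Bo a)) (fun a => cl D (Co a)) :=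
    { b := fun a => cl_mono (Finset.singleton_subset_iff.2 (selfBo a))
      c := fun a => cl_mono (Finset.singleton_subset_iff.2 (selfCo a))
      o := fun a b h1 h2 => by
        obtain ⟨x, hx, hxB⟩ := mem_cl'.1 h1
        obtain ⟨y, hy, hyC⟩ := mem_cl'.1 h2
        have hxy : y = x := h.o y x (mem_io.1 hxB y hy) (mem_io.1 hyC x hx)
        subst hxy
        have h3 : a = y := h.o a y (mem_io.1 hxB a (self_inN D a)) (h.memC hy)
        have h4 : y = b := h.o y b (h.memB hx) (mem_io.1 hyC b (self_inN D b))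
        exact h3.trans h4 }
  have h1 := hm _ _ hval
  have h2 : EE D (fun a => cl D (Bo a)) (fun a => cl D (Co a)) ≤ EE D Bo Co :=
    add_le_add (Finset.sum_le_sum fun a _ => gg' hce hmin _)
      (Finset.sum_le_sum fun a _ => gg' hce hmin _)
  -- every `Bo a` is closed
  have hclosed : ∀ a, cl D (Bo a) = Bo a := by
    by_contra hc
    push Not at hc
    obtain ⟨a, ha⟩ := hc
    have h3 : EE D (fun a => cl D (Bo a)) (fun a => cl D (Co a)) < EE D Bo Co :=
      add_lt_add_of_lt_of_le
        (Finset.sum_lt_sum (fun a _ => gg' hce hmin _) ⟨a, Finset.mem_univ _, gg hce hmin ha⟩)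
        (Finset.sum_le_sum fun a _ => gg' hce hmin _)
    linarith
  -- reachable sets
  have hreach : ∀ a x, Relation.ReflTransGen D.arc a x → x ∈ Bo a := by
    intro a x hx
    induction hx with
    | refl => exact selfBo a
    | tail _ hbc ih =>
      rw [← hclosed a]
      exact mem_cl.2 (Or.inr ⟨_, ih, hbc⟩)
  obtain ⟨a, -, ha⟩ := Finset.exists_min_image (univ : Finset V)
    (fun a => (univ.filter fun x => Relation.ReflTransGen D.arc a x).card)
    ⟨Classical.arbitrary V, Finset.mem_univ _⟩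
  have hpos : 0 < (N1 D a).card := lt_of_le_of_lt (Nat.zero_le _) (hce a)
  obtain ⟨b, hb⟩ := Finset.card_pos.1 hpos
  have hab : D.arc a b := mem_N1.1 hb
  have hsub : (univ.filter fun x => Relation.ReflTransGen D.arc b x) ⊆
      univ.filter fun x => Relation.ReflTransGen D.arc a x := by
    intro x hx
    rw [Finset.mem_filter] at hx ⊢
    exact ⟨hx.1, Relation.ReflTransGen.head hab hx.2⟩
  have heq := Finset.eq_of_subset_of_card_le hsub (ha b (Finset.mem_univ _))
  have hba : Relation.ReflTransGen D.arc b a := by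
    have h3 : a ∈ univ.filter fun x => Relation.ReflTransGen D.arc a x :=
      Finset.mem_filter.2 ⟨Finset.mem_univ _, Relation.ReflTransGen.refl⟩
    rw [← heq] at h3
    exact (Finset.mem_filter.1 h3).2
  rcases Relation.ReflTransGen.cases_tail hba with h3 | ⟨p, hbp, hpa⟩
  · exact D.loopless a (by rw [h3] at hab ⊢; exact hab)
  · have h4 : p ∈ Bo a := hreach a p (Relation.ReflTransGen.head hab hbp)
    have h5 : p ∈ B a := mem_io.1 h4 a (self_inN D a)
    have h6 : a ∈ C p := h.memC (mem_inN.2 (Or.inr hpa))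
    have h7 := h.o a p h5 h6
    rw [← h7] at hpa
    exact D.loopless a hpa

omit [DecidableEq V] in
/-- **Seymour's second neighbourhood conjecture.** -/
theorem snc [Nonempty V] (D : OGraph V) : ∃ v, (N1 D v).card ≤ (N2 D v).card := by
  classical
  by_contra hcon
  push Not at hcon
  obtain ⟨D', hD', hmin⟩ := (measure (fun D : OGraph V => numArcs D)).wf.has_min
    {D : OGraph V | ∀ v, (N2 D v).card < (N1 D v).card} ⟨D, hcon⟩
  exact no_min hD' fun D'' h'' => not_lt.1 fun hlt => hmin D'' h'' hlt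

end Vale.Agent.P038.H933S
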