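import Mathlib

/-!
# P038 (H933S): the key inequality (362's greedy marginals), abstract form

`c` is an integer valued submodular set function on a finite set `V`, `I a` the closed
in-neighbourhood of `a`, `B a ⊆ U a` two families, `Bo a = ⋂_{z ∈ I a} B z` and the same for `Uo`.
-/

namespace Vale.Agent.P038.H933S

open Finset

variable {V : Type*} [Fintype V] [DecidableEq V]

/-- Layer cake comparison. -/
theorem layer (y m : V → ℕ)
    (h : ∀ s : ℕ, (univ.filter fun a => s < y a).card ≤ (univ.filter fun a => s < m a).card) :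
    ∑ a, y a ≤ ∑ a, m a := by
  set M := ∑ a, y a + ∑ a, m a with hM
  have key : ∀ f : V → ℕ, (∀ a, f a ≤ M) →
      ∑ a, f a = ∑ s ∈ range M, (univ.filter fun a => s < f a).card := by
    intro f hf
    simp_rw [Finset.card_filter]
    rw [Finset.sum_comm]
    refine Finset.sum_congr rfl fun a _ => ?_
    rw [← Finset.card_filter]
    have h1 : (range M).filter (fun s => s < f a) = range (f a) := by
      ext s
      simp only [Finset.mem_filter, Finset.mem_range]
      exact ⟨fun h2 => h2.2, fun h2 => ⟨lt_of_lt_of_le h2 (hf a), h2⟩⟩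
    rw [h1, card_range]
  have hy : ∀ a, y a ≤ M := fun a =>
    (Finset.single_le_sum (fun _ _ => Nat.zero_le _) (Finset.mem_univ a)).trans
      (Nat.le_add_right _ _)
  have hm : ∀ a, m a ≤ M := fun a =>
    (Finset.single_le_sum (fun _ _ => Nat.zero_le _) (Finset.mem_univ a)).trans
      (Nat.le_add_left _ _)
  rw [key y hy, key m hm]
  exact Finset.sum_le_sum fun s _ => h s

/-- `min {c Z : Y ⊆ Z ⊆ K}`. -/
noncomputable def mc (c : Finset V → ℤ) (K Y : Finset V) : ℤ :=
  if h : Y ⊆ K then (K.powerset.filter fun Z => Y ⊆ Z).inf'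
    ⟨Y, Finset.mem_filter.2 ⟨Finset.mem_powerset.2 h, Finset.Subset.refl _⟩⟩ c else 0

theorem mc_le {c : Finset V → ℤ} {K Y Z : Finset V} (h1 : Y ⊆ Z) (h2 : Z ⊆ K) :
    mc c K Y ≤ c Z := by
  unfold mc
  rw [dif_pos (h1.trans h2)]
  exact Finset.inf'_le _ (Finset.mem_filter.2 ⟨Finset.mem_powerset.2 h2, h1⟩)

theorem exists_mc (c : Finset V → ℤ) {K Y : Finset V} (h : Y ⊆ K) :
    ∃ Z, Y ⊆ Z ∧ Z ⊆ K ∧ mc c K Y = c Z := by
  unfold mc
  rw [dif_pos h]
  obtain ⟨Z, hZ, hZ'⟩ := Finset.exists_mem_eq_inf'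
    (⟨Y, Finset.mem_filter.2 ⟨Finset.mem_powerset.2 h, Finset.Subset.refl _⟩⟩ :
      (K.powerset.filter fun Z => Y ⊆ Z).Nonempty) c
  obtain ⟨h1, h2⟩ := Finset.mem_filter.1 hZ
  exact ⟨Z, h2, Finset.mem_powerset.1 h1, hZ'⟩

theorem mc_mono {c : Finset V → ℤ} {K Y Y' : Finset V} (h1 : Y ⊆ Y') (h2 : Y' ⊆ K) :
    mc c K Y ≤ mc c K Y' := by
  obtain ⟨Z, hZ1, hZ2, hZ3⟩ := exists_mc c h2
  rw [hZ3]
  exact mc_le (h1.trans hZ1) hZ2

theorem mc_self (c : Finset V → ℤ) (K : Finset V) : mc c K K = c K := by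
  obtain ⟨Z, hZ1, hZ2, hZ3⟩ := exists_mc c (Finset.Subset.refl K)
  rw [hZ3, Finset.Subset.antisymm hZ2 hZ1]

/-- Exchange. -/
theorem mc_exch {c : Finset V → ℤ} (hsub : ∀ S T, c (S ∩ T) + c (S ∪ T) ≤ c S + c T)
    {K K' X Y : Finset V} {b : V} (hK : K' ⊆ K) (hX : X ⊆ K') (hXY : X ⊆ Y) (hY : Y ⊆ K)
    (hb : b ∈ K') : mc c K (insert b Y) - mc c K Y ≤ mc c K' (insert b X) - mc c K' X := by
  obtain ⟨Z', hZ'1, hZ'2, hZ'3⟩ := exists_mc c (K := K') (Y := insert b X)
    (Finset.insert_subset hb hX)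
  obtain ⟨Z, hZ1, hZ2, hZ3⟩ := exists_mc c hY
  have h1 := hsub Z' Z
  have h2 : mc c K' X ≤ c (Z' ∩ Z) :=
    mc_le (Finset.subset_inter ((Finset.subset_insert _ _).trans hZ'1) (hXY.trans hZ1))
      (Finset.inter_subset_left.trans hZ'2)
  have h3 : mc c K (insert b Y) ≤ c (Z' ∪ Z) :=
    mc_le (Finset.insert_subset (Finset.mem_union_left _ (hZ'1 (Finset.mem_insert_self _ _)))
      (hZ1.trans Finset.subset_union_right)) (Finset.union_subset (hZ'2.trans hK) hZ2)
  rw [hZ3, hZ'3]
  linarith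

/-- The intersection of the family `B` over `I a`. -/
def io (I B : V → Finset V) (a : V) : Finset V := univ.filter fun x => ∀ z ∈ I a, x ∈ B z

theorem mem_io {I B : V → Finset V} {a x : V} : x ∈ io I B a ↔ ∀ z ∈ I a, x ∈ B z := by
  simp [io]

theorem io_sub {I B : V → Finset V} {a z : V} (hz : z ∈ I a) : io I B a ⊆ B z :=
  fun _ hx => mem_io.1 hx z hz

theorem io_mono {I B U : V → Finset V} (h : ∀ a, B a ⊆ U a) (a : V) : io I B a ⊆ io I U a :=
  fun _ hx => mem_io.2 fun z hz => h z (mem_io.1 hx z hz)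

/-- Intersections stay optimal upwards. -/
theorem io_opt {c : Finset V → ℤ} (hsub : ∀ S T, c (S ∩ T) + c (S ∪ T) ≤ c S + c T)
    {I B U : V → Finset V} (hBU : ∀ a, B a ⊆ U a)
    (hR : ∀ a S, B a ⊆ S → S ⊆ U a → c (B a) ≤ c S)
    {a : V} {Z : Finset V} (h1 : io I B a ⊆ Z) (h2 : Z ⊆ io I U a) : c (io I B a) ≤ c Z := by
  have key : ∀ F : Finset V, F ⊆ I a →
      c (Z ∩ univ.filter fun x => ∀ z ∈ F, x ∈ B z) ≤ c Z := by
    intro F
    induction F using Finset.induction_on with
    | empty =>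
      intro _
      simp
    | insert z F hz ih =>
      intro hF
      have hzI : z ∈ I a := hF (Finset.mem_insert_self _ _)
      have h3 := ih ((Finset.subset_insert _ _).trans hF)
      set Y := Z ∩ univ.filter fun x => ∀ z ∈ F, x ∈ B z with hY
      have h4 : (Z ∩ univ.filter fun x => ∀ z' ∈ insert z F, x ∈ B z') = Y ∩ B z := by
        ext x
        simp only [hY, Finset.mem_inter, Finset.mem_filter, Finset.mem_univ, true_and,
          Finset.mem_insert, forall_eq_or_imp]
        tauto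
      have h5 : Y ∪ B z ⊆ U z :=
        Finset.union_subset (Finset.inter_subset_left.trans (h2.trans (io_sub hzI))) (hBU z)
      have h6 := hR z (Y ∪ B z) Finset.subset_union_right h5
      have h7 := hsub Y (B z)
      rw [h4]
      linarith
  have h3 := key (I a) (Finset.Subset.refl _)
  have h4 : (Z ∩ univ.filter fun x => ∀ z ∈ I a, x ∈ B z) = io I B a :=
    Finset.inter_eq_right.2 h1
  rwa [h4] at h3

/-- The running set `B ∪ (U ∩ W)`. -/
def run (B U W : Finset V) : Finset V := B ∪ (U ∩ W)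

theorem run_sub {B U : Finset V} (h : B ⊆ U) (W : Finset V) : run B U W ⊆ U :=
  Finset.union_subset h Finset.inter_subset_left

theorem run_insert_mem {B U : Finset V} (W : Finset V) {b : V} (hb : b ∈ U) :
    run B U (insert b W) = insert b (run B U W) := by
  ext x
  simp only [run, Finset.mem_union, Finset.mem_inter, Finset.mem_insert]
  constructor
  · rintro (h | ⟨h1, h | h⟩)
    · exact Or.inr (Or.inl h)
    · exact Or.inl h
    · exact Or.inr (Or.inr ⟨h1, h⟩)
  · rintro (h | h | ⟨h1, h⟩)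
    · exact Or.inr ⟨h ▸ hb, Or.inl h⟩
    · exact Or.inl h
    · exact Or.inr ⟨h1, Or.inr h⟩

theorem run_insert_eq {B U : Finset V} (W : Finset V) {b : V} (hb : b ∉ U ∨ b ∈ B) :
    run B U (insert b W) = run B U W := by
  ext x
  simp only [run, Finset.mem_union, Finset.mem_inter, Finset.mem_insert]
  constructor
  · rintro (h | ⟨h1, h | h⟩)
    · exact Or.inl h
    · rcases hb with hb | hb
      · exact absurd (h ▸ h1) hb
      · exact Or.inl (h ▸ hb)
    · exact Or.inr ⟨h1, h⟩
  · rintro (h | ⟨h1, h⟩)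
    · exact Or.inl h
    · exact Or.inr ⟨h1, Or.inr h⟩

theorem run_mono {B U B' U' : Finset V} (W : Finset V) (hB : B ⊆ B') (hU : U ⊆ U') :
    run B U W ⊆ run B' U' W :=
  Finset.union_subset_union hB (Finset.inter_subset_inter_right hU)

theorem run_mono_W {B U W W' : Finset V} (h : W ⊆ W') : run B U W ⊆ run B U W' :=
  Finset.union_subset_union_right (Finset.inter_subset_inter_left h)

theorem run_empty (B U : Finset V) : run B U ∅ = B := by simp [run]

theorem run_univ {B U : Finset V} (h : B ⊆ U) : run B U univ = U := by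
  simp [run, Finset.union_eq_right.2 h]

/-- The key inequality. -/
theorem key {c : Finset V → ℤ} (hsub : ∀ S T, c (S ∩ T) + c (S ∪ T) ≤ c S + c T)
    {I B U : V → Finset V} (hBU : ∀ a, B a ⊆ U a)
    (hR : ∀ a S, B a ⊆ S → S ⊆ U a → c (B a) ≤ c S)
    (hC : ∀ (b : V) (T : Finset V), (∀ a ∈ T, b ∈ U a ∧ b ∉ B a) →
      T.card ≤ (univ.filter fun a' => b ∈ io I U a' ∧ ∃ z ∈ I a', z ∈ T).card) :
    ∑ a, (c (U a) - c (B a)) ≤ ∑ a, (c (io I U a) - c (io I B a)) := by
  set Φ : V → Finset V → ℤ := fun a W => mc c (U a) (run (B a) (U a) W) with hΦ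
  set Ψ : V → Finset V → ℤ := fun a W => mc c (io I U a) (run (io I B a) (io I U a) W) with hΨ
  have hio := io_mono (I := I) hBU
  have step : ∀ (W : Finset V) (b : V),
      ∑ a, (Φ a (insert b W) - Φ a W) ≤ ∑ a, (Ψ a (insert b W) - Ψ a W) := by
    intro W b
    have hy0 : ∀ a, 0 ≤ Φ a (insert b W) - Φ a W := fun a =>
      sub_nonneg.2 (mc_mono (run_mono_W (Finset.subset_insert _ _)) (run_sub (hBU a) _))
    have hm0 : ∀ a, 0 ≤ Ψ a (insert b W) - Ψ a W := fun a =>
      sub_nonneg.2 (mc_mono (run_mono_W (Finset.subset_insert _ _)) (run_sub (hio a) _))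
    have hlay := layer (fun a => (Φ a (insert b W) - Φ a W).toNat)
      (fun a => (Ψ a (insert b W) - Ψ a W).toNat) (by
        intro s
        have h1 := hC b (univ.filter fun a => s < (Φ a (insert b W) - Φ a W).toNat) (by
          intro a ha
          have ha' := (Finset.mem_filter.1 ha).2
          by_contra hcon
          have hcon' : b ∉ U a ∨ b ∈ B a := by tauto
          have h2 : Φ a (insert b W) - Φ a W = 0 := by
            simp only [hΦ, run_insert_eq W hcon', sub_self]
          rw [h2] at ha'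
          simp at ha')
        refine h1.trans (Finset.card_le_card fun a' ha' => ?_)
        obtain ⟨hb, z, hz, hzT⟩ := (Finset.mem_filter.1 ha').2
        refine Finset.mem_filter.2 ⟨Finset.mem_univ _, ?_⟩
        have h3 := (Finset.mem_filter.1 hzT).2
        have hbU : b ∈ U z := mem_io.1 hb z hz
        have h4 : Φ z (insert b W) - Φ z W ≤ Ψ a' (insert b W) - Ψ a' W := by
          simp only [hΦ, hΨ]
          rw [run_insert_mem W hbU, run_insert_mem W hb]
          exact mc_exch hsub (io_sub hz) (run_sub (hio a') W)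
            (run_mono W (io_sub hz) (io_sub hz)) (run_sub (hBU z) W) hb
        have h5 := Int.toNat_le_toNat h4
        omega)
    have e1 : ∑ a, (Φ a (insert b W) - Φ a W)
        = ((∑ a, (Φ a (insert b W) - Φ a W).toNat : ℕ) : ℤ) := by
      rw [Nat.cast_sum]
      exact Finset.sum_congr rfl fun a _ => (Int.toNat_of_nonneg (hy0 a)).symm
    have e2 : ∑ a, (Ψ a (insert b W) - Ψ a W)
        = ((∑ a, (Ψ a (insert b W) - Ψ a W).toNat : ℕ) : ℤ) := by
      rw [Nat.cast_sum]
      exact Finset.sum_congr rfl fun a _ => (Int.toNat_of_nonneg (hm0 a)).symm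
    rw [e1, e2]
    exact_mod_cast hlay
  have tot : ∀ W : Finset V, ∑ a, (Φ a W - Φ a ∅) ≤ ∑ a, (Ψ a W - Ψ a ∅) := by
    intro W
    induction W using Finset.induction_on with
    | empty => simp
    | insert b W _ ih =>
      have h1 := step W b
      simp only [Finset.sum_sub_distrib] at h1 ih ⊢
      linarith
  have h1 := tot univ
  have hΦ0 : ∀ a, Φ a ∅ = c (B a) := by
    intro a
    simp only [hΦ, run_empty]
    obtain ⟨Z, hZ1, hZ2, hZ3⟩ := exists_mc c (hBU a)
    refine le_antisymm (mc_le (Finset.Subset.refl _) (hBU a)) ?_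
    rw [hZ3]
    exact hR a Z hZ1 hZ2
  have hΨ0 : ∀ a, Ψ a ∅ = c (io I B a) := by
    intro a
    simp only [hΨ, run_empty]
    obtain ⟨Z, hZ1, hZ2, hZ3⟩ := exists_mc c (hio a)
    refine le_antisymm (mc_le (Finset.Subset.refl _) (hio a)) ?_
    rw [hZ3]
    exact io_opt hsub hBU hR hZ1 hZ2
  have hΦ1 : ∀ a, Φ a univ = c (U a) := by
    intro a
    simp only [hΦ, run_univ (hBU a), mc_self]
  have hΨ1 : ∀ a, Ψ a univ = c (io I U a) := by
    intro a
    simp only [hΨ, run_univ (hio a), mc_self]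
  simpa only [hΦ0, hΨ0, hΦ1, hΨ1] using h1

end Vale.Agent.P038.H933S
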