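import Vale.Agent.P038.H71.Plan
import Vale.Agent.P038.H933S.Key

/-!
# P038 (H933S): Seymour's second neighbourhood conjecture

A counterexample `D` with the fewest arcs satisfies `cc (cl X) < cc X` for every set `X` which is not
closed under out-neighbours, where `cc X = |N[X]| - |X|` (helper294). A pair of families
`N[a] ⊆ B a, C a` (never `b ∈ B a` and `a ∈ C b` for `a ≠ b`) with `∑ cc (B a) + ∑ cc (C a)` minimal
gives a contradiction with the pair `N[Bo a]`, `N[Co a]`, where `Bo a = ⋂_{z ∈ N⁻[a]} B z`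
(helpers 657, 413, 362, 391).
-/

namespace Vale.Agent.P038.H933S

open Finset Vale.Agent.P038.H139 Vale.Agent.P038.H71

universe u

variable {V : Type u} [Fintype V] [DecidableEq V]

open Classical in
/-- The closed in-neighbourhood. -/
noncomputable def inN (D : OGraph V) (a : V) : Finset V :=
  univ.filter fun z => z = a ∨ D.arc z a

theorem mem_inN {D : OGraph V} {a z : V} : z ∈ inN D a ↔ z = a ∨ D.arc z a := by
  classical
  simp [inN]

theorem self_inN (D : OGraph V) (a : V) : a ∈ inN D a := mem_inN.2 (Or.inl rfl)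

theorem mem_cl' {D : OGraph V} {S : Finset V} {z : V} : z ∈ cl D S ↔ ∃ y ∈ inN D z, y ∈ S := by
  rw [mem_cl]
  constructor
  · rintro (h | ⟨y, hy, hyz⟩)
    · exact ⟨z, self_inN D z, h⟩
    · exact ⟨y, mem_inN.2 (Or.inr hyz), hy⟩
  · rintro ⟨y, hy, hyS⟩
    rcases mem_inN.1 hy with h | h
    · exact Or.inl (h ▸ hyS)
    · exact Or.inr ⟨y, hyS, h⟩

theorem sub_cl (D : OGraph V) (S : Finset V) : S ⊆ cl D S := fun _ hz => mem_cl.2 (Or.inl hz)

theorem cl_un (D : OGraph V) (S T : Finset V) : cl D (S ∪ T) = cl D S ∪ cl D T := by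
  ext z
  simp only [Finset.mem_union, mem_cl']
  constructor
  · rintro ⟨y, hy, h | h⟩
    · exact Or.inl ⟨y, hy, h⟩
    · exact Or.inr ⟨y, hy, h⟩
  · rintro (⟨y, hy, h⟩ | ⟨y, hy, h⟩)
    · exact ⟨y, hy, Or.inl h⟩
    · exact ⟨y, hy, Or.inr h⟩

/-- `|N[S]| - |S|`. -/
noncomputable def cc (D : OGraph V) (S : Finset V) : ℤ := (cl D S).card - S.card

theorem cc_sub (D : OGraph V) (S T : Finset V) :
    cc D (S ∩ T) + cc D (S ∪ T) ≤ cc D S + cc D T := by
  have h1 : cl D (S ∩ T) ⊆ cl D S ∩ cl D T := by
    intro z hz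
    obtain ⟨y, hy, hyS⟩ := mem_cl'.1 hz
    rw [Finset.mem_inter] at hyS
    exact Finset.mem_inter.2 ⟨mem_cl'.2 ⟨y, hy, hyS.1⟩, mem_cl'.2 ⟨y, hy, hyS.2⟩⟩
  have h2 := Finset.card_le_card h1
  have h3 := Finset.card_union_add_card_inter (cl D S) (cl D T)
  have h4 := Finset.card_union_add_card_inter S T
  unfold cc
  rw [cl_un]
  omega

/-- Valid pairs of families. -/
structure Val (D : OGraph V) (B C : V → Finset V) : Prop where
  b : ∀ a, cl D {a} ⊆ B a
  c : ∀ a, cl D {a} ⊆ C a
  o : ∀ a b, b ∈ B a → a ∈ C b → a = b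

theorem Val.memB {D : OGraph V} {B C : V → Finset V} (h : Val D B C) {x z : V}
    (hz : z ∈ inN D x) : x ∈ B z :=
  h.b z (mem_cl'.2 ⟨z, hz, Finset.mem_singleton_self z⟩)

theorem Val.memC {D : OGraph V} {B C : V → Finset V} (h : Val D B C) {x z : V}
    (hz : z ∈ inN D x) : x ∈ C z :=
  h.c z (mem_cl'.2 ⟨z, hz, Finset.mem_singleton_self z⟩)

theorem val_cl (D : OGraph V) : Val D (fun a => cl D {a}) (fun a => cl D {a}) where
  b _ := Finset.Subset.refl _
  c _ := Finset.Subset.refl _
  o a b h1 h2 := by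
    rw [mem_cl] at h1 h2
    simp only [Finset.mem_singleton, exists_eq_left] at h1 h2
    rcases h1 with h1 | h1
    · exact h1.symm
    · rcases h2 with h2 | h2
      · exact h2
      · exact absurd h2 (D.asymm _ _ h1)

/-- The value of a pair. -/
noncomputable def EE (D : OGraph V) (B C : V → Finset V) : ℤ :=
  ∑ a, cc D (B a) + ∑ a, cc D (C a)

theorem sum_upd (f : Finset V → ℤ) (B : V → Finset V) (a : V) (S : Finset V) :
    ∑ x, f (Function.update B a S x) = ∑ x, f (B x) + (f S - f (B a)) := by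
  rw [← Finset.add_sum_erase univ (fun x => f (Function.update B a S x)) (Finset.mem_univ a),
    ← Finset.add_sum_erase univ (fun x => f (B x)) (Finset.mem_univ a)]
  have h1 : ∑ x ∈ univ.erase a, f (Function.update B a S x) = ∑ x ∈ univ.erase a, f (B x) :=
    Finset.sum_congr rfl fun x hx => by
      rw [Function.update_of_ne (Finset.ne_of_mem_erase hx)]
  rw [h1]
  simp only [Function.update_self]
  ring

theorem dc (K : V → Finset V) : ∑ b, (K b).card = ∑ a, (univ.filter fun b => a ∈ K b).card := by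
  simp_rw [Finset.card_filter]
  rw [Finset.sum_comm]
  refine Finset.sum_congr rfl fun b _ => ?_
  rw [← Finset.card_filter]
  congr 1
  ext x
  simp

theorem cnt_le (K L : V → Finset V) (h : ∀ a b, a ≠ b → b ∈ L a → a ∉ K b) :
    ∑ b, (K b).card + ∑ a, (L a).card ≤ ∑ _a : V, (Fintype.card V + 1) := by
  rw [dc, ← Finset.sum_add_distrib]
  refine Finset.sum_le_sum fun a _ => ?_
  rw [← Finset.card_union_add_card_inter]
  refine Nat.add_le_add (Finset.card_le_univ _) ?_
  have h1 : (univ.filter fun b => a ∈ K b) ∩ L a ⊆ {a} := by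
    intro b hb
    rw [Finset.mem_inter, Finset.mem_filter] at hb
    rw [Finset.mem_singleton]
    by_contra hne
    exact h a b (Ne.symm hne) hb.2 hb.1.2
  exact (Finset.card_le_card h1).trans (Finset.card_singleton a).le

theorem cnt_eq (K L : V → Finset V) (h : ∀ a b, a ≠ b → (b ∈ L a ↔ a ∉ K b))
    (hK : ∀ a, a ∈ K a) (hL : ∀ a, a ∈ L a) :
    ∑ b, (K b).card + ∑ a, (L a).card = ∑ _a : V, (Fintype.card V + 1) := by
  rw [dc, ← Finset.sum_add_distrib]
  refine Finset.sum_congr rfl fun a _ => ?_
  rw [← Finset.card_union_add_card_inter]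
  have h1 : (univ.filter fun b => a ∈ K b) ∩ L a = {a} := by
    ext b
    rw [Finset.mem_inter, Finset.mem_filter, Finset.mem_singleton]
    constructor
    · intro hb
      by_contra hne
      exact (h a b (Ne.symm hne)).1 hb.2 hb.1.2
    · rintro rfl
      exact ⟨⟨Finset.mem_univ _, hK _⟩, hL _⟩
  have h2 : (univ.filter fun b => a ∈ K b) ∪ L a = univ := by
    ext b
    simp only [Finset.mem_union, Finset.mem_filter, Finset.mem_univ, true_and, iff_true]
    by_cases hab : a = b
    · exact Or.inr (hab ▸ hL _)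
    · by_cases hk : a ∈ K b
      · exact Or.inl hk
      · exact Or.inr ((h a b hab).2 hk)
  rw [h1, h2, Finset.card_singleton, Finset.card_univ]

/-- The main inequality: `E(Bo, Co) ≤ E(B, C)` at a minimiser. -/
theorem shift {D : OGraph V} {B C : V → Finset V} (h : Val D B C)
    (hmin : ∀ B' C', Val D B' C' → EE D B C ≤ EE D B' C') :
    EE D (io (inN D) B) (io (inN D) C) ≤ EE D B C := by
  set U : V → Finset V := fun a => univ.filter fun b => b = a ∨ a ∉ C b with hU
  have mU : ∀ {a b : V}, b ∈ U a ↔ b = a ∨ a ∉ C b := by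
    intro a b
    simp [hU]
  have hBU : ∀ a, B a ⊆ U a := by
    intro a b hb
    rw [mU]
    by_cases hc : a ∈ C b
    · exact Or.inl (h.o a b hb hc).symm
    · exact Or.inr hc
  have selfB : ∀ a, a ∈ B a := fun a => h.memB (self_inN D a)
  have selfC : ∀ a, a ∈ C a := fun a => h.memC (self_inN D a)
  have hR : ∀ a S, B a ⊆ S → S ⊆ U a → cc D (B a) ≤ cc D S := by
    intro a S h1 h2
    have h3 := hmin (Function.update B a S) C
      { b := fun x => by
          by_cases hx : x = a
          · rw [hx, Function.update_self]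
            exact (h.b a).trans h1
          · rw [Function.update_of_ne hx]
            exact h.b x
        c := h.c
        o := fun x y hy hx => by
          by_cases hxa : x = a
          · subst hxa
            rw [Function.update_self] at hy
            rcases mU.1 (h2 hy) with h4 | h4
            · exact h4.symm
            · exact absurd hx h4
          · rw [Function.update_of_ne hxa] at hy
            exact h.o x y hy hx }
    unfold EE at h3
    rw [sum_upd] at h3
    linarith
  have hC : ∀ (b : V) (T : Finset V), (∀ a ∈ T, b ∈ U a ∧ b ∉ B a) →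
      T.card ≤ (univ.filter fun a' => b ∈ io (inN D) U a' ∧ ∃ z ∈ inN D a', z ∈ T).card := by
    intro b T hT
    have hTC : ∀ a ∈ T, a ∉ C b := by
      intro a ha
      rcases mU.1 (hT a ha).1 with h4 | h4
      · exact absurd (h4 ▸ selfB a) (hT a ha).2
      · exact h4
    have h3 := hmin B (Function.update C b (C b ∪ T))
      { b := h.b
        c := fun x => by
          by_cases hx : x = b
          · rw [hx, Function.update_self]
            exact (h.c b).trans Finset.subset_union_left
          · rw [Function.update_of_ne hx]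
            exact h.c x
        o := fun x y hy hx => by
          by_cases hyb : y = b
          · subst hyb
            rw [Function.update_self] at hx
            rcases Finset.mem_union.1 hx with h4 | h4
            · exact h.o x y hy h4
            · exact absurd hy (hT x h4).2
          · rw [Function.update_of_ne hyb] at hx
            exact h.o x y hy hx }
    unfold EE at h3
    rw [sum_upd] at h3
    have h4 : cc D (C b) ≤ cc D (C b ∪ T) := by linarith
    have h5 : (C b ∪ T).card = (C b).card + T.card :=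
      Finset.card_union_of_disjoint (by
        rw [Finset.disjoint_left]
        intro x hx hxT
        exact hTC x hxT hx)
    have h6 : cl D (C b ∪ T) ⊆ cl D (C b) ∪
        (univ.filter fun a' => b ∈ io (inN D) U a' ∧ ∃ z ∈ inN D a', z ∈ T) := by
      intro x hx
      rw [Finset.mem_union]
      by_cases hxC : x ∈ cl D (C b)
      · exact Or.inl hxC
      · right
        have h7 : ∀ z ∈ inN D x, z ∉ C b := fun z hz hzC => hxC (mem_cl'.2 ⟨z, hz, hzC⟩)
        obtain ⟨y, hy, hyC⟩ := mem_cl'.1 hx
        refine Finset.mem_filter.2 ⟨Finset.mem_univ _, mem_io.2 fun z hz => ?_, y, hy, ?_⟩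
        · exact mU.2 (Or.inr (h7 z hz))
        · rcases Finset.mem_union.1 hyC with h8 | h8
          · exact absurd h8 (h7 y hy)
          · exact h8
    have h7 := (Finset.card_le_card h6).trans (Finset.card_union_le _ _)
    unfold cc at h4
    omega
  have hkey := key (cc_sub D) hBU hR hC
  -- counting
  have c1 := cnt_eq C U (fun a b hab => by
    rw [mU]
    exact ⟨fun h1 => h1.resolve_left (Ne.symm hab), Or.inr⟩) selfC (fun a => mU.2 (Or.inl rfl))
  have ioU : ∀ a b, a ≠ b → (b ∈ io (inN D) U a ↔ a ∉ cl D (C b)) := by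
    intro a b hab
    constructor
    · intro h1 h2
      obtain ⟨y, hy, hyC⟩ := mem_cl'.1 h2
      rcases mU.1 (mem_io.1 h1 y hy) with h3 | h3
      · subst h3
        rcases mU.1 (mem_io.1 h1 a (self_inN D a)) with h4 | h4
        · exact hab h4.symm
        · exact h4 (h.memC hy)
      · exact h3 hyC
    · intro h1
      exact mem_io.2 fun z hz => mU.2 (Or.inr fun h2 => h1 (mem_cl'.2 ⟨z, hz, h2⟩))
  have ioUself : ∀ a, a ∈ io (inN D) U a := fun a => mem_io.2 fun z hz => hBU z (h.memB hz)
  have c2 := cnt_eq (fun b => cl D (C b)) (io (inN D) U) ioU (fun a => sub_cl D _ (selfC a))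
    ioUself
  have ioC : ∀ a b, a ≠ b → (b ∈ cl D (U a) ↔ a ∉ io (inN D) C b) := by
    intro a b hab
    constructor
    · intro h1 h2
      obtain ⟨y, hy, hyU⟩ := mem_cl'.1 h1
      rcases mU.1 hyU with h3 | h3
      · subst h3
        have h4 := mem_io.1 h2 b (self_inN D b)
        exact hab (h.o y b (h.memB hy) h4)
      · exact h3 (mem_io.1 h2 y hy)
    · intro h1
      rw [mem_io] at h1
      push Not at h1
      obtain ⟨z, hz, hzC⟩ := h1
      exact mem_cl'.2 ⟨z, hz, mU.2 (Or.inr hzC)⟩
  have ioCself : ∀ a, a ∈ io (inN D) C a := fun a => mem_io.2 fun z hz => h.memC hz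
  have c3 := cnt_eq (io (inN D) C) (fun a => cl D (U a)) ioC ioCself
    (fun a => sub_cl D _ (mU.2 (Or.inl rfl)))
  have c4 := cnt_le (fun b => cl D (io (inN D) C b)) (fun a => cl D (io (inN D) U a)) (by
    intro a b hab h1 h2
    -- `b ∈ N[Uo a]` and `a ∈ N[Co b]`
    obtain ⟨x, hx, hxU⟩ := mem_cl'.1 h1
    obtain ⟨y, hy, hyC⟩ := mem_cl'.1 h2
    -- `x ∈ Uo a`, `x ∈ N⁻[b]`; `y ∈ Co b`, `y ∈ N⁻[a]`
    have h3 : y ∈ C x := mem_io.1 hyC x hx
    rcases mU.1 (mem_io.1 hxU y hy) with h4 | h4
    · -- `x = y`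
      subst h4
      rcases mU.1 (mem_io.1 hxU a (self_inN D a)) with h5 | h5
      · subst h5
        exact hab (h.o x b (h.memB hx) (mem_io.1 hyC b (self_inN D b)))
      · exact h5 (h.memC hy)
    · exact h4 h3)
  unfold EE
  unfold cc at hkey ⊢
  simp only [Finset.sum_sub_distrib] at hkey ⊢
  push_cast at *
  have c1' : (∑ b, ((C b).card : ℤ)) + ∑ a, ((U a).card : ℤ)
      = ((∑ _a : V, (Fintype.card V + 1) : ℕ) : ℤ) := by exact_mod_cast c1
  have c2' : (∑ b, ((cl D (C b)).card : ℤ)) + ∑ a, ((io (inN D) U a).card : ℤ)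
      = ((∑ _a : V, (Fintype.card V + 1) : ℕ) : ℤ) := by exact_mod_cast c2
  have c3' : (∑ b, ((io (inN D) C b).card : ℤ)) + ∑ a, ((cl D (U a)).card : ℤ)
      = ((∑ _a : V, (Fintype.card V + 1) : ℕ) : ℤ) := by exact_mod_cast c3
  have c4' : (∑ b, ((cl D (io (inN D) C b)).card : ℤ)) + ∑ a, ((cl D (io (inN D) U a)).card : ℤ)
      ≤ ((∑ _a : V, (Fintype.card V + 1) : ℕ) : ℤ) := by exact_mod_cast c4
  linarith

end Vale.Agent.P038.H933S
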